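import Vale.Agent.P273.H578.CutG

/-!
# P273, row ASY1, item (C): derivatives of the collision cut-offs at one node

A pair of roots `e - d`, `e + d`, the other roots at distance at least `dl`.  A mark of the neck is
`x = e + (X + Y) / 2`, `X Y = d²`; `lX`, `lY` are the derivatives of `log X`, `log Y` in a direction
(so `(lX + lY)/2` is the one of `log d`) and `τ` bounds the derivatives of the distances to the
other roots.  Outside the root zone (`κ |d| ≤ |x - (e ± d)|`):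

* `logN_neckX`, `logN_neckY` : `LogN` for a mark of the neck, any common logarithmic derivative `ζ`,
* `logN_core` : `LogN` with `ζ = 0` for marks at distance at least `κ` from the roots,
* `abs_fderiv_cut_neck`, `abs_fderiv_cut_core` : the bounds of the derivative of the cut-off.
-/

open Set Filter Topology Metric
open scoped ContDiff ComplexConjugate
open Vale.Agent.P273.H973 Vale.Agent.P273.H562 Vale.Agent.P273.H578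

noncomputable section

namespace Vale.Agent.P273.H581

/-! ### the algebra of one neck -/

section alg

variable {X Y d : ℂ}

theorem norm_d_sq (h : X * Y = d ^ 2) : ‖d‖ ^ 2 = ‖X‖ * ‖Y‖ := by
  rw [← norm_pow, ← h, norm_mul]

theorem norm_d_le (h : X * Y = d ^ 2) (hY : ‖Y‖ ≤ 2 * ‖X‖) : ‖d‖ ≤ 3 / 2 * ‖X‖ := by
  have h1 := norm_d_sq h
  have h2 := norm_nonneg X
  have h3 := norm_nonneg d
  nlinarith

theorem norm_Y_le (h : X * Y = d ^ 2) (hY : ‖Y‖ ≤ 2 * ‖X‖) : ‖Y‖ ≤ 3 / 2 * ‖d‖ := by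
  have h1 := norm_d_sq h
  have h2 := norm_nonneg Y
  have h3 := norm_nonneg d
  nlinarith

/-- the distance to a root of the pair, upper bound -/
theorem norm_t_le (h : X * Y = d ^ 2) (hY : ‖Y‖ ≤ 2 * ‖X‖) {s : ℂ} (hs : ‖s‖ = ‖d‖) :
    ‖(X + Y) / 2 + s‖ ≤ 3 * ‖X‖ := by
  have h1 := norm_d_le h hY
  calc ‖(X + Y) / 2 + s‖ ≤ ‖(X + Y) / 2‖ + ‖s‖ := norm_add_le _ _
    _ ≤ (‖X‖ + ‖Y‖) / 2 + ‖d‖ := by
        rw [norm_div, hs]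
        have := norm_add_le X Y
        have h2 : ‖(2 : ℂ)‖ = 2 := by norm_num
        rw [h2]
        linarith
    _ ≤ 3 * ‖X‖ := by linarith

/-- the distance to a root of the pair, lower bound -/
theorem le_norm_t (h : X * Y = d ^ 2) {κ : ℝ} (hκ : κ ≤ 1) {s : ℂ}
    (hs : ‖s‖ = ‖d‖) (ht : κ * ‖d‖ ≤ ‖(X + Y) / 2 + s‖) : κ / 8 * ‖X‖ ≤ ‖(X + Y) / 2 + s‖ := by
  have h1 := norm_d_sq h
  have hX := norm_nonneg X
  have hY := norm_nonneg Y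
  have hd := norm_nonneg d
  rcases le_or_gt κ 0 with hk | hk
  · have : κ / 8 * ‖X‖ ≤ 0 := mul_nonpos_of_nonpos_of_nonneg (by linarith) hX
    exact this.trans (norm_nonneg _)
  rcases le_or_gt (‖X‖ / 8) ‖d‖ with h2 | h2
  · calc κ / 8 * ‖X‖ = κ * (‖X‖ / 8) := by ring
      _ ≤ κ * ‖d‖ := by gcongr
      _ ≤ _ := ht
  · have hX0 : 0 < ‖X‖ := by linarith
    have h3 : ‖Y‖ ≤ ‖X‖ / 64 := by
      have : ‖X‖ * ‖Y‖ ≤ ‖X‖ * (‖X‖ / 64) := by rw [← h1]; nlinarith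
      exact le_of_mul_le_mul_left this hX0
    have h4 : ‖(X + Y) / 2 + s‖ ≥ ‖X‖ / 2 - ‖Y‖ / 2 - ‖d‖ := by
      have e1 : X / 2 = ((X + Y) / 2 + s) + (-(Y / 2) - s) := by ring
      have e2 : ‖X / 2‖ ≤ ‖(X + Y) / 2 + s‖ + (‖Y / 2‖ + ‖s‖) := by
        calc ‖X / 2‖ = ‖((X + Y) / 2 + s) + (-(Y / 2) - s)‖ := by rw [← e1]
          _ ≤ ‖(X + Y) / 2 + s‖ + ‖-(Y / 2) - s‖ := norm_add_le _ _
          _ ≤ _ := by
            have := norm_sub_le (-(Y / 2)) s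
            rw [norm_neg] at this
            linarith
      rw [norm_div, norm_div, hs] at e2
      have h2 : ‖(2 : ℂ)‖ = 2 := by norm_num
      rw [h2] at e2
      linarith
    nlinarith

/-- the derivative of the distance to a root of the pair: `s = ± d`, `s' = s (lX + lY)/2` -/
theorem norm_t'_sub_le (h : X * Y = d ^ 2) (hY : ‖Y‖ ≤ 2 * ‖X‖) (hX : X ≠ 0) {κ : ℝ} (hκ0 : 0 < κ)
    (hκ : κ ≤ 1) {s lX lY ζ : ℂ} (hs : ‖s‖ = ‖d‖) (ht : κ * ‖d‖ ≤ ‖(X + Y) / 2 + s‖) :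
    ‖(X * lX + Y * lY) / 2 + s * ((lX + lY) / 2) - ζ * ((X + Y) / 2 + s)‖ ≤
      (‖lX - ζ‖ + 10 / κ * (‖d‖ / ‖X‖ * ‖lX - lY‖)) * ‖(X + Y) / 2 + s‖ := by
  have hX0 : 0 < ‖X‖ := norm_pos_iff.2 hX
  have e : (X * lX + Y * lY) / 2 + s * ((lX + lY) / 2) - ζ * ((X + Y) / 2 + s) =
      (lX - ζ) * ((X + Y) / 2 + s) + (lY - lX) * ((Y + s) / 2) := by ring
  rw [e, add_mul]
  refine (norm_add_le _ _).trans (add_le_add (norm_mul_le _ _) ?_)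
  have h1 := le_norm_t h hκ hs ht
  have h2 := norm_Y_le h hY
  have h3 : ‖(Y + s) / 2‖ ≤ 5 / 4 * ‖d‖ := by
    rw [norm_div]
    have := norm_add_le Y s
    rw [hs] at this
    have h2 : ‖(2 : ℂ)‖ = 2 := by norm_num
    rw [h2]
    linarith
  have h4 : 1 ≤ 8 / (κ * ‖X‖) * ‖(X + Y) / 2 + s‖ := by
    rw [div_mul_eq_mul_div, one_le_div (by positivity)]
    linarith
  calc ‖(lY - lX) * ((Y + s) / 2)‖ ≤ ‖lY - lX‖ * (5 / 4 * ‖d‖) := by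
        rw [norm_mul]
        gcongr
    _ = ‖lX - lY‖ * (5 / 4 * ‖d‖) * 1 := by rw [norm_sub_rev, mul_one]
    _ ≤ ‖lX - lY‖ * (5 / 4 * ‖d‖) * (8 / (κ * ‖X‖) * ‖(X + Y) / 2 + s‖) := by gcongr
    _ = _ := by field_simp; ring

end alg

/-! ### one mark -/

section mark

variable {ι : Type*} [Fintype ι] {E : Type*} [NormedAddCommGroup E] [NormedSpace ℝ E]
  {b : E → ι → ℂ} {p q : E → ℂ × ℂ} {e v : E}

/-- a mark of the neck of the pair `i₁`, `i₂`, its direction, outside the root zone -/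
structure NeckMark (b : E → ι → ℂ) (p : E → ℂ × ℂ) (e v : E) (i₁ i₂ : ι) (κ dl τ : ℝ)
    (d X Y lX lY : ℂ) : Prop where
  mul : X * Y = d ^ 2
  ne : X ≠ 0 ∧ Y ≠ 0
  le_one : ‖X‖ ≤ 1 ∧ ‖Y‖ ≤ 1
  t₁ : (p e).1 - b e i₁ = (X + Y) / 2 + d
  t₂ : (p e).1 - b e i₂ = (X + Y) / 2 + -d
  t₁' : fderiv ℝ (fun e => (p e).1 - b e i₁) e v = (X * lX + Y * lY) / 2 + d * ((lX + lY) / 2)
  t₂' : fderiv ℝ (fun e => (p e).1 - b e i₂) e v = (X * lX + Y * lY) / 2 + -d * ((lX + lY) / 2)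
  far : ∀ i, i ≠ i₁ → i ≠ i₂ → dl ≤ ‖(p e).1 - b e i‖
  far' : ∀ i, i ≠ i₁ → i ≠ i₂ → ‖fderiv ℝ (fun e => (p e).1 - b e i) e v‖ ≤
    ‖X‖ * ‖lX‖ + ‖Y‖ * ‖lY‖ + τ
  off₁ : κ * ‖d‖ ≤ ‖(p e).1 - b e i₁‖
  off₂ : κ * ‖d‖ ≤ ‖(p e).1 - b e i₂‖

omit [Fintype ι] in
/-- the role of `X` and `Y` is symmetric -/
theorem NeckMark.symm {i₁ i₂ : ι} {κ dl τ : ℝ} {d X Y lX lY : ℂ}
    (h : NeckMark b p e v i₁ i₂ κ dl τ d X Y lX lY) :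
    NeckMark b p e v i₁ i₂ κ dl τ d Y X lY lX where
  mul := by rw [mul_comm]; exact h.mul
  ne := h.ne.symm
  le_one := h.le_one.symm
  t₁ := by rw [h.t₁, add_comm X]
  t₂ := by rw [h.t₂, add_comm X]
  t₁' := by rw [h.t₁', add_comm lX, add_comm (X * lX)]
  t₂' := by rw [h.t₂', add_comm lX, add_comm (X * lX)]
  far := h.far
  far' := fun i h1 h2 => (h.far' i h1 h2).trans (le_of_eq (by ring))
  off₁ := h.off₁
  off₂ := h.off₂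

/-- **`LogN` for a mark on the `X` side of the neck** -/
theorem NeckMark.logN {i₁ i₂ : ι} {κ dl τ : ℝ} {d X Y lX lY : ℂ}
    (h : NeckMark b p e v i₁ i₂ κ dl τ d X Y lX lY) (hκ0 : 0 < κ) (hκ : κ ≤ 1) (hdl : 0 < dl)
    (hdl1 : dl ≤ 1) (hτ : 0 ≤ τ) (hY : ‖Y‖ ≤ 2 * ‖X‖) (ζ : ℂ) {ρ : ℝ}
    (hρ : ‖lX - ζ‖ + 10 / κ * (‖d‖ / ‖X‖ * ‖lX - lY‖) + 9 / dl ^ 3 * ‖X‖ *
      (‖X‖ * ‖ζ‖ + ‖X‖ * ‖lX‖ + ‖Y‖ * ‖lY‖ + τ) ≤ ρ) : LogN b p e v ζ ρ := by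
  classical
  set t : ι → ℂ := fun i => (p e).1 - b e i with htd
  have hX0 : 0 < ‖X‖ := norm_pos_iff.2 h.ne.1
  have hY0 : 0 < ‖Y‖ := norm_pos_iff.2 h.ne.2
  have hd0 : 0 < ‖d‖ := by
    have h1 := norm_d_sq h.mul
    have h2 : 0 < ‖X‖ * ‖Y‖ := by positivity
    rw [← h1] at h2
    by_contra h3
    have h4 : ‖d‖ = 0 := le_antisymm (not_lt.1 h3) (norm_nonneg _)
    rw [h4] at h2
    norm_num at h2
  have hρ1 : ‖lX - ζ‖ + 10 / κ * (‖d‖ / ‖X‖ * ‖lX - lY‖) ≤ ρ := le_trans (by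
    have : 0 ≤ 9 / dl ^ 3 * ‖X‖ * (‖X‖ * ‖ζ‖ + ‖X‖ * ‖lX‖ + ‖Y‖ * ‖lY‖ + τ) := by positivity
    linarith) hρ
  have hρ2 : 9 / dl ^ 3 * ‖X‖ * (‖X‖ * ‖ζ‖ + ‖X‖ * ‖lX‖ + ‖Y‖ * ‖lY‖ + τ) ≤ ρ := le_trans (by
    have : 0 ≤ ‖lX - ζ‖ + 10 / κ * (‖d‖ / ‖X‖ * ‖lX - lY‖) := by positivity
    linarith) hρ
  have hρ0 : 0 ≤ ρ := le_trans (by positivity) hρ1
  -- the roots of the pair
  have hpair : ∀ (i : ι) (s : ℂ), ‖s‖ = ‖d‖ → t i = (X + Y) / 2 + s →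
      fderiv ℝ (fun e => (p e).1 - b e i) e v = (X * lX + Y * lY) / 2 + s * ((lX + lY) / 2) →
      κ * ‖d‖ ≤ ‖t i‖ → ‖fderiv ℝ (fun e => (p e).1 - b e i) e v - ζ * t i‖ ≤
        ρ * ‖t i‖ ^ 3 * qs t := by
    intro i s hs h1 h2 h3
    have h4 : 0 < ‖t i‖ := lt_of_lt_of_le (by positivity) h3
    have h5 : 1 ≤ ‖t i‖ ^ 2 * qs t := one_le_mul_qs (norm_pos_iff.1 h4)
    rw [h2]
    rw [h1] at h3
    have h6 := norm_t'_sub_le h.mul hY h.ne.1 hκ0 hκ (lX := lX) (lY := lY) (ζ := ζ) hs h3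
    rw [← h1] at h6
    refine h6.trans ?_
    calc _ ≤ ρ * ‖t i‖ := by gcongr
      _ = ρ * ‖t i‖ * 1 := by ring
      _ ≤ ρ * ‖t i‖ * (‖t i‖ ^ 2 * qs t) := by gcongr
      _ = _ := by ring
  intro i
  show ‖fderiv ℝ (fun e => (p e).1 - b e i) e v - ζ * t i‖ ≤ ρ * ‖t i‖ ^ 3 * qs t
  by_cases h1 : i = i₁
  · subst h1
    exact hpair i d rfl h.t₁ h.t₁' h.off₁
  by_cases h2 : i = i₂
  · subst h2
    exact hpair i (-d) (norm_neg d) h.t₂ h.t₂' h.off₂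
  -- the other roots
  have h3 := h.far i h1 h2
  have h4 := h.far' i h1 h2
  have h5 : 0 < ‖t i‖ := hdl.trans_le h3
  have h6 : (9 * ‖X‖ ^ 2)⁻¹ ≤ qs t := by
    refine le_trans ?_ (inv_le_qs t i₁)
    have h7 : ‖t i₁‖ ≤ 3 * ‖X‖ := by
      rw [htd]
      show ‖(p e).1 - b e i₁‖ ≤ _
      rw [h.t₁]
      exact norm_t_le h.mul hY rfl
    have h8 : 0 < ‖t i₁‖ := lt_of_lt_of_le (by positivity) h.off₁
    refine inv_anti₀ (by positivity) ?_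
    calc ‖t i₁‖ ^ 2 ≤ (3 * ‖X‖) ^ 2 := by gcongr
      _ = _ := by ring
  have h7 : dl ^ 2 * ‖t i‖ * (9 * ‖X‖ ^ 2)⁻¹ ≤ ‖t i‖ ^ 3 * qs t := by
    calc dl ^ 2 * ‖t i‖ * (9 * ‖X‖ ^ 2)⁻¹ ≤ ‖t i‖ ^ 2 * ‖t i‖ * qs t := by
          gcongr
      _ = _ := by ring
  have h8 : dl * (‖ζ‖ + (‖X‖ * ‖lX‖ + ‖Y‖ * ‖lY‖ + τ) ) ≤ ‖ζ‖ * 1 +
      (‖X‖ * ‖lX‖ + ‖Y‖ * ‖lY‖ + τ) := by
    have : 0 ≤ ‖ζ‖ + (‖X‖ * ‖lX‖ + ‖Y‖ * ‖lY‖ + τ) := by positivity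
    nlinarith
  calc ‖fderiv ℝ (fun e => (p e).1 - b e i) e v - ζ * t i‖
      ≤ (‖X‖ * ‖lX‖ + ‖Y‖ * ‖lY‖ + τ) + ‖ζ‖ * ‖t i‖ := by
        refine (norm_sub_le _ _).trans (add_le_add h4 (norm_mul_le _ _))
    _ ≤ (‖X‖ * ‖lX‖ + ‖Y‖ * ‖lY‖ + τ) * (‖t i‖ / dl) + ‖ζ‖ * ‖t i‖ * (1 / dl) := by
        have h9 : 1 ≤ ‖t i‖ / dl := (one_le_div hdl).2 h3
        have h10 : 1 ≤ 1 / dl := (one_le_div hdl).2 hdl1
        refine add_le_add ?_ ?_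
        · exact le_mul_of_one_le_right (by positivity) h9
        · exact le_mul_of_one_le_right (by positivity) h10
    _ = 9 / dl ^ 3 * ‖X‖ ^ 2 * (‖ζ‖ + (‖X‖ * ‖lX‖ + ‖Y‖ * ‖lY‖ + τ)) *
        (dl ^ 2 * ‖t i‖ * (9 * ‖X‖ ^ 2)⁻¹) := by
        field_simp
        ring
    _ ≤ ρ * (‖t i‖ ^ 3 * qs t) := by
        refine mul_le_mul ?_ h7 (by positivity) hρ0
        refine le_trans ?_ hρ2
        have h11 := h.le_one.1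
        have h12 : ‖X‖ * ‖X‖ ≤ ‖X‖ * 1 := by gcongr
        have h13 : 0 ≤ ‖X‖ * ‖lX‖ + ‖Y‖ * ‖lY‖ + τ := by positivity
        have h14 : 0 ≤ 9 / dl ^ 3 := by positivity
        have h15 : ‖X‖ ^ 2 * (‖ζ‖ + (‖X‖ * ‖lX‖ + ‖Y‖ * ‖lY‖ + τ)) ≤
            ‖X‖ * (‖X‖ * ‖ζ‖ + ‖X‖ * ‖lX‖ + ‖Y‖ * ‖lY‖ + τ) := by
          have : ‖X‖ * ‖X‖ * (‖X‖ * ‖lX‖ + ‖Y‖ * ‖lY‖ + τ) ≤
              ‖X‖ * 1 * (‖X‖ * ‖lX‖ + ‖Y‖ * ‖lY‖ + τ) := by gcongr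
          nlinarith
        calc 9 / dl ^ 3 * ‖X‖ ^ 2 * (‖ζ‖ + (‖X‖ * ‖lX‖ + ‖Y‖ * ‖lY‖ + τ))
            = 9 / dl ^ 3 * (‖X‖ ^ 2 * (‖ζ‖ + (‖X‖ * ‖lX‖ + ‖Y‖ * ‖lY‖ + τ))) := by ring
          _ ≤ 9 / dl ^ 3 * (‖X‖ * (‖X‖ * ‖ζ‖ + ‖X‖ * ‖lX‖ + ‖Y‖ * ‖lY‖ + τ)) := by gcongr
          _ = _ := by ring
    _ = _ := by ring

/-- **`LogN` for marks away from the roots** -/
theorem logN_core {κ τ : ℝ} (hκ : 0 < κ) (hτ : 0 ≤ τ) (h : ∀ i, κ ≤ ‖(p e).1 - b e i‖)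
    (h' : ∀ i, ‖fderiv ℝ (fun e => (p e).1 - b e i) e v‖ ≤ τ) {ρ : ℝ} (hρ : τ / κ ≤ ρ) :
    LogN b p e v 0 ρ := by
  intro i
  have h1 := h i
  have h2 : 0 < ‖(p e).1 - b e i‖ := hκ.trans_le h1
  have h3 : 1 ≤ ‖(p e).1 - b e i‖ ^ 2 * qs fun i => (p e).1 - b e i :=
    one_le_mul_qs (t := fun i => (p e).1 - b e i) (norm_pos_iff.1 h2)
  have hρ0 : 0 ≤ ρ := le_trans (by positivity) hρ
  rw [zero_mul, sub_zero]
  calc ‖fderiv ℝ (fun e => (p e).1 - b e i) e v‖ ≤ τ := h' i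
    _ = τ / κ * κ := by field_simp
    _ ≤ ρ * ‖(p e).1 - b e i‖ := by gcongr
    _ = ρ * ‖(p e).1 - b e i‖ * 1 := by ring
    _ ≤ ρ * ‖(p e).1 - b e i‖ * (‖(p e).1 - b e i‖ ^ 2 * qs fun i => (p e).1 - b e i) := by
        gcongr
    _ = _ := by ring

/-- the size of the relative motion of two marks of the neck -/
def gap (X Y d lX lY lX' lY' : ℂ) (τ : ℝ) : ℝ :=
  ‖lX - lX'‖ + ‖lY - lY'‖ + ‖X‖ * ‖lX‖ + ‖Y‖ * ‖lY‖ + τ +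
    min (‖d‖ / ‖X‖) (‖d‖ / ‖Y‖) * ‖lX - lY‖

theorem gap_symm (X Y d lX lY lX' lY' : ℂ) (τ : ℝ) :
    gap Y X d lY lX lY' lX' τ = gap X Y d lX lY lX' lY' τ := by
  unfold gap
  rw [min_comm, norm_sub_rev lY lX]
  ring

theorem gap_nonneg (X Y d lX lY lX' lY' : ℂ) {τ : ℝ} (hτ : 0 ≤ τ) :
    0 ≤ gap X Y d lX lY lX' lY' τ := by
  unfold gap
  positivity

/-- the constant -/
def Kc (κ dl : ℝ) : ℝ := 21 / κ + 60 / dl ^ 3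

theorem Kc_pos {κ dl : ℝ} (hκ : 0 < κ) (hdl : 0 < dl) : 0 < Kc κ dl := by
  unfold Kc
  positivity

theorem arith₁ {k w A B G H M τ : ℝ} (hk : 1 ≤ k) (hw : 0 ≤ w) (hA : 0 ≤ A) (hB : 0 ≤ B)
    (hG : 0 ≤ G) (hH : 0 ≤ H) (hM : 0 ≤ M) (hτ : 0 ≤ τ) :
    10 * k * M + 9 * w * (G + G + H + τ) ≤ (21 * k + 60 * w) * (A + B + G + H + τ + M) := by
  have hk0 : 0 ≤ k := by linarith
  have e1 : 0 ≤ k * (A + B + G + H + τ) := by positivity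
  have e2 : 0 ≤ w * (A + B + M) := by positivity
  have e3 : 0 ≤ w * G := by positivity
  have e4 : 0 ≤ w * H := by positivity
  have e5 : 0 ≤ w * τ := by positivity
  have e6 : 0 ≤ k * M := by positivity
  linarith

theorem arith₂ {k w A B G H M τ : ℝ} (hk : 1 ≤ k) (hw : 0 ≤ w) (hA : 0 ≤ A) (hB : 0 ≤ B)
    (hG : 0 ≤ G) (hH : 0 ≤ H) (hM : 0 ≤ M) (hτ : 0 ≤ τ) :
    A + 10 * k * (4 / 3 * (M + A + B)) +
      9 * w * (5 / 4 * G + 5 / 4 * (G + A) + 5 / 4 * (H + B) + τ) ≤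
      (21 * k + 60 * w) * (A + B + G + H + τ + M) := by
  have hk0 : 0 ≤ k := by linarith
  have e0 : 0 ≤ (k - 1) * A := mul_nonneg (by linarith) hA
  have e1 : 0 ≤ k * A := by positivity
  have e2 : 0 ≤ k * B := by positivity
  have e3 : 0 ≤ k * M := by positivity
  have e4 : 0 ≤ k * (G + H + τ) := by positivity
  have f1 : 0 ≤ w * A := by positivity
  have f2 : 0 ≤ w * B := by positivity
  have f3 : 0 ≤ w * M := by positivity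
  have f4 : 0 ≤ w * G := by positivity
  have f5 : 0 ≤ w * H := by positivity
  have f6 : 0 ≤ w * τ := by positivity
  linarith

/-- **two marks of the neck have a common logarithmic derivative up to their relative motion** -/
theorem exists_logN_of_le {i₁ i₂ : ι} {κ dl τ : ℝ} {d X Y lX lY X' Y' lX' lY' : ℂ}
    (hp : NeckMark b p e v i₁ i₂ κ dl τ d X Y lX lY)
    (hq : NeckMark b q e v i₁ i₂ κ dl τ d X' Y' lX' lY') (hκ0 : 0 < κ) (hκ : κ ≤ 1)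
    (hdl : 0 < dl) (hdl1 : dl ≤ 1) (hτ : 0 ≤ τ) (hX : ‖X' - X‖ ≤ ‖X‖ / 4)
    (hY : ‖Y' - Y‖ ≤ ‖Y‖ / 4) (hle : ‖Y‖ ≤ ‖X‖) :
    LogN b p e v lX (Kc κ dl * gap X Y d lX lY lX' lY' τ) ∧
      LogN b q e v lX (Kc κ dl * gap X Y d lX lY lX' lY' τ) := by
  have hX0 : 0 < ‖X‖ := norm_pos_iff.2 hp.ne.1
  have hY0 : 0 < ‖Y‖ := norm_pos_iff.2 hp.ne.2
  have hX'1 : ‖X'‖ ≤ 5 / 4 * ‖X‖ := by
    have := norm_sub_norm_le X' X
    linarith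
  have hX'2 : 3 / 4 * ‖X‖ ≤ ‖X'‖ := by
    have := norm_sub_norm_le X X'
    rw [norm_sub_rev] at this
    linarith
  have hY'1 : ‖Y'‖ ≤ 5 / 4 * ‖Y‖ := by
    have := norm_sub_norm_le Y' Y
    linarith
  have hX'0 : 0 < ‖X'‖ := by linarith
  have hdX : ‖d‖ ≤ ‖X‖ := by
    have h1 := norm_d_sq hp.mul
    have h2 := norm_nonneg d
    nlinarith
  have hmin : min (‖d‖ / ‖X‖) (‖d‖ / ‖Y‖) = ‖d‖ / ‖X‖ :=
    min_eq_left (div_le_div_of_nonneg_left (norm_nonneg _) hY0 hle)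
  set m : ℝ := ‖d‖ / ‖X‖ with hm
  have hm0 : 0 ≤ m := by positivity
  have hm1 : m ≤ 1 := (div_le_one hX0).2 hdX
  have hm' : ‖d‖ / ‖X'‖ ≤ 4 / 3 * m := by
    rw [hm, div_le_iff₀ hX'0]
    calc ‖d‖ = 4 / 3 * (‖d‖ / ‖X‖) * (3 / 4 * ‖X‖) := by field_simp
      _ ≤ _ := by gcongr
  set A : ℝ := ‖lX - lX'‖ with hA
  set B : ℝ := ‖lY - lY'‖ with hB
  set G : ℝ := ‖X‖ * ‖lX‖ with hG
  set H : ℝ := ‖Y‖ * ‖lY‖ with hH
  set M : ℝ := m * ‖lX - lY‖ with hM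
  have hA0 : 0 ≤ A := norm_nonneg _
  have hB0 : 0 ≤ B := norm_nonneg _
  have hG0 : 0 ≤ G := by positivity
  have hH0 : 0 ≤ H := by positivity
  have hM0 : 0 ≤ M := by positivity
  have hgap : gap X Y d lX lY lX' lY' τ = A + B + G + H + τ + M := by
    unfold gap
    rw [hmin]
  have hk1 : 1 ≤ 1 / κ := (one_le_div hκ0).2 hκ
  have hκi : 0 < 1 / κ := by positivity
  have hdi : 0 < 1 / dl ^ 3 := by positivity
  constructor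
  · refine hp.logN hκ0 hκ hdl hdl1 hτ (by linarith) lX ?_
    rw [hgap, sub_self, norm_zero, zero_add, ← hm]
    unfold Kc
    have h1 : 9 / dl ^ 3 * ‖X‖ * (‖X‖ * ‖lX‖ + ‖X‖ * ‖lX‖ + ‖Y‖ * ‖lY‖ + τ) ≤
        9 / dl ^ 3 * 1 * (G + G + H + τ) := by
      gcongr
      exact hp.le_one.1
    have h2 : 10 / κ * (m * ‖lX - lY‖) = 10 * (1 / κ) * M := by rw [hM]; ring
    have h3 : 9 / dl ^ 3 * 1 * (G + G + H + τ) = 9 * (1 / dl ^ 3) * (G + G + H + τ) := by ring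
    have h4 : (21 / κ + 60 / dl ^ 3) * (A + B + G + H + τ + M) =
      (21 * (1 / κ) + 60 * (1 / dl ^ 3)) * (A + B + G + H + τ + M) := by ring
    rw [h4, h2]
    rw [h3] at h1
    exact (add_le_add le_rfl h1).trans (arith₁ hk1 hdi.le hA0 hB0 hG0 hH0 hM0 hτ)
  · refine hq.logN hκ0 hκ hdl hdl1 hτ (by linarith) lX ?_
    rw [hgap]
    unfold Kc
    have h1 : ‖lX' - lX‖ = A := norm_sub_rev _ _
    have h2 : ‖lX' - lY'‖ ≤ ‖lX - lY‖ + A + B := by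
      have e : lX' - lY' = (lX - lY) + (-(lX - lX')) + (lY - lY') := by ring
      rw [e]
      refine (norm_add_le _ _).trans (add_le_add ((norm_add_le _ _).trans (le_of_eq ?_)) le_rfl)
      rw [norm_neg]
    have h3 : 10 / κ * (‖d‖ / ‖X'‖ * ‖lX' - lY'‖) ≤ 10 * (1 / κ) * (4 / 3 * (M + A + B)) := by
      calc 10 / κ * (‖d‖ / ‖X'‖ * ‖lX' - lY'‖)
          ≤ 10 / κ * ((4 / 3 * m) * (‖lX - lY‖ + A + B)) := by gcongr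
        _ = 10 * (1 / κ) * (4 / 3 * (M + m * (A + B))) := by rw [hM]; ring
        _ ≤ 10 * (1 / κ) * (4 / 3 * (M + 1 * (A + B))) := by gcongr
        _ = _ := by ring
    have h4 : ‖X'‖ * ‖lX'‖ ≤ 5 / 4 * (G + A) := by
      have e1 : ‖lX'‖ ≤ ‖lX‖ + A := by
        have := norm_add_le lX (-(lX - lX'))
        rw [norm_neg] at this
        have e : lX + -(lX - lX') = lX' := by ring
        rwa [e] at this
      calc ‖X'‖ * ‖lX'‖ ≤ (5 / 4 * ‖X‖) * (‖lX‖ + A) := by gcongr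
        _ = 5 / 4 * (G + ‖X‖ * A) := by rw [hG]; ring
        _ ≤ 5 / 4 * (G + 1 * A) := by
            have := hp.le_one.1
            gcongr
        _ = _ := by ring
    have h5 : ‖Y'‖ * ‖lY'‖ ≤ 5 / 4 * (H + B) := by
      have e1 : ‖lY'‖ ≤ ‖lY‖ + B := by
        have := norm_add_le lY (-(lY - lY'))
        rw [norm_neg] at this
        have e : lY + -(lY - lY') = lY' := by ring
        rwa [e] at this
      calc ‖Y'‖ * ‖lY'‖ ≤ (5 / 4 * ‖Y‖) * (‖lY‖ + B) := by gcongr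
        _ = 5 / 4 * (H + ‖Y‖ * B) := by rw [hH]; ring
        _ ≤ 5 / 4 * (H + 1 * B) := by
            have := hp.le_one.2
            gcongr
        _ = _ := by ring
    have h6 : ‖X'‖ * ‖lX‖ ≤ 5 / 4 * G := by
      calc ‖X'‖ * ‖lX‖ ≤ (5 / 4 * ‖X‖) * ‖lX‖ := by gcongr
        _ = _ := by rw [hG]; ring
    have h7 : 9 / dl ^ 3 * ‖X'‖ * (‖X'‖ * ‖lX‖ + ‖X'‖ * ‖lX'‖ + ‖Y'‖ * ‖lY'‖ + τ) ≤
        9 / dl ^ 3 * 1 * (5 / 4 * G + 5 / 4 * (G + A) + 5 / 4 * (H + B) + τ) := by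
      have := hq.le_one.1
      gcongr
    have h8 : 9 / dl ^ 3 * 1 * (5 / 4 * G + 5 / 4 * (G + A) + 5 / 4 * (H + B) + τ) =
        9 * (1 / dl ^ 3) * (5 / 4 * G + 5 / 4 * (G + A) + 5 / 4 * (H + B) + τ) := by ring
    have h9 : (21 / κ + 60 / dl ^ 3) * (A + B + G + H + τ + M) =
      (21 * (1 / κ) + 60 * (1 / dl ^ 3)) * (A + B + G + H + τ + M) := by ring
    rw [h9, h1]
    rw [h8] at h7
    exact (add_le_add (add_le_add le_rfl h3) h7).trans (arith₂ hk1 hdi.le hA0 hB0 hG0 hH0 hM0 hτ)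

/-- **(C2), `LogN` form** -/
theorem exists_logN_neck {i₁ i₂ : ι} {κ dl τ : ℝ} {d X Y lX lY X' Y' lX' lY' : ℂ}
    (hp : NeckMark b p e v i₁ i₂ κ dl τ d X Y lX lY)
    (hq : NeckMark b q e v i₁ i₂ κ dl τ d X' Y' lX' lY') (hκ0 : 0 < κ) (hκ : κ ≤ 1)
    (hdl : 0 < dl) (hdl1 : dl ≤ 1) (hτ : 0 ≤ τ) (hX : ‖X' - X‖ ≤ ‖X‖ / 4)
    (hY : ‖Y' - Y‖ ≤ ‖Y‖ / 4) :
    ∃ ζ, LogN b p e v ζ (Kc κ dl * gap X Y d lX lY lX' lY' τ) ∧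
      LogN b q e v ζ (Kc κ dl * gap X Y d lX lY lX' lY' τ) := by
  rcases le_total ‖Y‖ ‖X‖ with h | h
  · exact ⟨lX, exists_logN_of_le hp hq hκ0 hκ hdl hdl1 hτ hX hY h⟩
  · have := exists_logN_of_le hp.symm hq.symm hκ0 hκ hdl hdl1 hτ hY hX h
    rw [gap_symm] at this
    exact ⟨lY, this⟩

end mark

end Vale.Agent.P273.H581
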