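import Vale.Agent.P273.H581.Col1
import Vale.Agent.P273.H730.One1

/-!
# P273, row ASY1, item (C): the instance of `Col1` at one node

Families of roots `b` and marks `p` over a real normed space (the log coordinates of the region);
at the point: roots `bd k q d`, direction `bw k δ d λ`.

* `neckMark_of_nv` : a mark `xn k q X Y` with direction `nv k δ d X Y lX lY`,
* `exists_neck` : constants `U`, `c₀`, `B` with **(C2)**: two comparable marks of the neck outside the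
  root zone have a common logarithmic derivative up to `B gap₁`,
* `logN_bw` : **(C3)** marks at distance at least `κ` from the roots,
* `off_of_nr` : the root zone.
-/

open Set Filter Topology Metric
open scoped ContDiff ComplexConjugate
open Vale.Agent.P273.H973 Vale.Agent.P273.H562 Vale.Agent.P273.H578 Vale.Agent.P273.H681
open Vale.Agent.P273.H730

noncomputable section

namespace Vale.Agent.P273.H581

/-! ### general -/

section gen

variable {ι : Type*} [Fintype ι] {E : Type*} [NormedAddCommGroup E] [NormedSpace ℝ E]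
  {b : E → ι → ℂ} {p q : E → ℂ × ℂ} {e v : E} {c : ℝ}

theorem LogN.mono {ζ : ℂ} {ρ ρ' : ℝ} (h : LogN b p e v ζ ρ) (hρ : ρ ≤ ρ') :
    LogN b p e v ζ ρ' := fun i =>
  (h i).trans (mul_le_mul_of_nonneg_right (mul_le_mul_of_nonneg_right hρ (by positivity))
    (qs_nonneg _))

/-- the distance of a near mark to a root -/
theorem off_of_nr {b : ι → ℂ} {p q : ℂ × ℂ} (hp : Off b p.1) (hc : 0 ≤ c) (h : Nr c b p q)
    (i : ι) : (1 - c) * ‖p.1 - b i‖ ≤ ‖q.1 - b i‖ := by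
  have h1 := Hs_le hp i
  have h2 : ‖p.1 - b i‖ ≤ ‖p.1 - q.1‖ + ‖q.1 - b i‖ := by
    have := norm_add_le (p.1 - q.1) (q.1 - b i)
    rwa [sub_add_sub_cancel] at this
  have h3 : ‖p.1 - q.1‖ ≤ c * ‖p.1 - b i‖ := h.2.le.trans (mul_le_mul_of_nonneg_left h1 hc)
  linarith

theorem off_of_nr' {b : ι → ℂ} {p q : ℂ × ℂ} (hp : Off b p.1) (hc : 0 ≤ c) (h : Nr c b p q)
    (i : ι) : ‖q.1 - b i‖ ≤ (1 + c) * ‖p.1 - b i‖ := by
  have h1 := Hs_le hp i
  have h2 : ‖q.1 - b i‖ ≤ ‖p.1 - q.1‖ + ‖p.1 - b i‖ := by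
    have := norm_sub_le (p.1 - b i) (p.1 - q.1)
    have e : p.1 - b i - (p.1 - q.1) = q.1 - b i := by ring
    rw [e] at this
    linarith
  have h3 : ‖p.1 - q.1‖ ≤ c * ‖p.1 - b i‖ := h.2.le.trans (mul_le_mul_of_nonneg_left h1 hc)
  linarith

omit [Fintype ι] in
theorem fderiv_sub_apply (hb : DifferentiableAt ℝ b e) (hp : DifferentiableAt ℝ (fun e => (p e).1) e)
    (i : ι) : fderiv ℝ (fun e => (p e).1 - b e i) e v =
      fderiv ℝ (fun e => (p e).1) e v - fderiv ℝ b e v i := by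
  have hbi : DifferentiableAt ℝ (fun e => b e i) e := differentiableAt_pi.1 hb i
  have h1 : fderiv ℝ (fun e => b e i) e v = fderiv ℝ b e v i := by
    rw [fderiv_pi (fun i => differentiableAt_pi.1 hb i)]
    rfl
  rw [fderiv_fun_sub hp hbi, ← h1]
  rfl

end gen

/-! ### the pair -/

section pair

variable {k : Fin 5}

theorem bd_cs (q : C6) (d : ℂ) : bd k q d k.castSucc = q k.castSucc - d := by
  simp [H828.pr]

theorem bd_s (q : C6) (d : ℂ) : bd k q d k.succ = q k.castSucc + d := by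
  have h : k.succ ≠ k.castSucc := by
    intro h
    have := congrArg Fin.val h
    simp at this
  simp [H828.pr, h]

theorem bd_o (q : C6) (d : ℂ) {i : Fin 6} (h1 : i ≠ k.castSucc) (h2 : i ≠ k.succ) :
    bd k q d i = q i := by
  simp [H828.pr, h1, h2]

theorem bw_cs (δ : C6) (d lam : ℂ) : bw k δ d lam k.castSucc = δ k.castSucc - d * lam := by
  simp [H828.pr]

theorem bw_s (δ : C6) (d lam : ℂ) : bw k δ d lam k.succ = δ k.castSucc + d * lam := by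
  have h : k.succ ≠ k.castSucc := by
    intro h
    have := congrArg Fin.val h
    simp at this
  simp [H828.pr, h]

theorem bw_o (δ : C6) (d lam : ℂ) {i : Fin 6} (h1 : i ≠ k.castSucc) (h2 : i ≠ k.succ) :
    bw k δ d lam i = δ i := by
  simp [H828.pr, h1, h2]

theorem norm_bw_le (δ : C6) (d lam : ℂ) (i : Fin 6) : ‖bw k δ d lam i‖ ≤ ‖δ‖ + ‖d‖ * ‖lam‖ := by
  have hδ : ∀ j, ‖δ j‖ ≤ ‖δ‖ := fun j => norm_le_pi_norm δ j
  by_cases h1 : i = k.castSucc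
  · subst h1
    rw [bw_cs]
    exact (norm_sub_le _ _).trans (add_le_add (hδ _) (norm_mul_le _ _))
  by_cases h2 : i = k.succ
  · subst h2
    rw [bw_s]
    exact (norm_add_le _ _).trans (add_le_add (hδ _) (norm_mul_le _ _))
  rw [bw_o δ d lam h1 h2]
  have : 0 ≤ ‖d‖ * ‖lam‖ := by positivity
  linarith [hδ i]

variable {E : Type*} [NormedAddCommGroup E] [NormedSpace ℝ E]
  {b : E → C6} {p p' : E → ℂ × ℂ} {e v : E}

/-- a mark of the neck in 730's coordinates -/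
theorem neckMark_of_nv {q δ : C6} {d X Y lX lY : ℂ} {κ dl : ℝ} (hb : DifferentiableAt ℝ b e)
    (hp : DifferentiableAt ℝ (fun e => (p e).1) e) (eb : b e = bd k q d)
    (ep : (p e).1 = xn k q X Y) (db : fderiv ℝ b e v = bw k δ d ((lX + lY) / 2))
    (dp : fderiv ℝ (fun e => (p e).1) e v = (nv k δ d X Y lX lY).2) (mul : X * Y = d ^ 2)
    (hd : d ≠ 0) (hX : ‖X‖ ≤ 1) (hY : ‖Y‖ ≤ 1)
    (far : ∀ i, i ≠ k.castSucc → i ≠ k.succ → dl ≤ ‖xn k q X Y - q i‖)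
    (off₁ : κ * ‖d‖ ≤ ‖xn k q X Y - (q k.castSucc - d)‖)
    (off₂ : κ * ‖d‖ ≤ ‖xn k q X Y - (q k.castSucc + d)‖) :
    NeckMark b p e v k.castSucc k.succ κ dl (2 * ‖δ‖) d X Y lX lY where
  mul := mul
  ne := by
    have h : X * Y ≠ 0 := by rw [mul]; exact pow_ne_zero 2 hd
    exact ⟨left_ne_zero_of_mul h, right_ne_zero_of_mul h⟩
  le_one := ⟨hX, hY⟩
  t₁ := by rw [ep, eb, bd_cs, xn]; ring
  t₂ := by rw [ep, eb, bd_s, xn]; ring
  t₁' := by
    rw [fderiv_sub_apply hb hp, db, dp, bw_cs]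
    show δ k.castSucc + (X * lX + Y * lY) / 2 - _ = _
    ring
  t₂' := by
    rw [fderiv_sub_apply hb hp, db, dp, bw_s]
    show δ k.castSucc + (X * lX + Y * lY) / 2 - _ = _
    ring
  far := fun i h1 h2 => by
    rw [ep, eb, bd_o q d h1 h2]
    exact far i h1 h2
  far' := fun i h1 h2 => by
    rw [fderiv_sub_apply hb hp, db, dp, bw_o δ d _ h1 h2]
    show ‖δ k.castSucc + (X * lX + Y * lY) / 2 - δ i‖ ≤ _
    have h3 : ‖(X * lX + Y * lY) / 2‖ ≤ ‖X‖ * ‖lX‖ + ‖Y‖ * ‖lY‖ := by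
      rw [norm_div, ← norm_mul, ← norm_mul]
      have h4 : ‖(2 : ℂ)‖ = 2 := by norm_num
      rw [h4]
      have h5 := norm_add_le (X * lX) (Y * lY)
      have h6 := norm_nonneg (X * lX)
      have h7 := norm_nonneg (Y * lY)
      linarith
    have h4 := norm_le_pi_norm δ k.castSucc
    have h5 := norm_le_pi_norm δ i
    calc ‖δ k.castSucc + (X * lX + Y * lY) / 2 - δ i‖
        ≤ ‖δ k.castSucc + (X * lX + Y * lY) / 2‖ + ‖δ i‖ := norm_sub_le _ _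
      _ ≤ ‖δ k.castSucc‖ + ‖(X * lX + Y * lY) / 2‖ + ‖δ i‖ :=
          add_le_add (norm_add_le _ _) le_rfl
      _ ≤ _ := by linarith
  off₁ := by rw [ep, eb, bd_cs]; exact off₁
  off₂ := by rw [ep, eb, bd_s]; exact off₂

/-- the size of the relative motion of two marks of the neck, at one node -/
def gap₁ (δ : C6) (X Y d lX lY lX' lY' : ℂ) : ℝ :=
  ‖δ‖ + ‖lX - lX'‖ + ‖lY - lY'‖ + ‖X‖ * ‖lX‖ + ‖Y‖ * ‖lY‖ +
    min (‖d‖ / ‖X‖) (‖d‖ / ‖Y‖) * ‖lX - lY‖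

theorem gap_le (δ : C6) (X Y d lX lY lX' lY' : ℂ) :
    gap X Y d lX lY lX' lY' (2 * ‖δ‖) ≤ 2 * gap₁ δ X Y d lX lY lX' lY' := by
  unfold gap gap₁
  have h1 : 0 ≤ ‖lX - lX'‖ + ‖lY - lY'‖ + ‖X‖ * ‖lX‖ + ‖Y‖ * ‖lY‖ +
    min (‖d‖ / ‖X‖) (‖d‖ / ‖Y‖) * ‖lX - lY‖ := by positivity
  linarith

/-- the other roots are away from the pair -/
theorem exists_far {q₀ : C6} (hq : q₀ ∈ H828.XD k) : ∃ U ∈ 𝓝 q₀, ∃ dl > 0, dl ≤ 1 ∧
    ∀ q ∈ U, ∀ i, i ≠ k.castSucc → i ≠ k.succ → 2 * dl ≤ ‖q k.castSucc - q i‖ := by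
  have hne : ∀ i, i ≠ k.castSucc → i ≠ k.succ → q₀ k.castSucc ≠ q₀ i := by
    intro i h1 h2 h3
    rcases lt_or_gt_of_ne h1 with h | h
    · have := hq.2 i k.castSucc h (Or.inl h1) (by rw [h3])
      rw [h3] at this
      exact lt_irrefl _ this
    · have := hq.2 k.castSucc i h (Or.inr h2) (by rw [h3])
      rw [h3] at this
      exact lt_irrefl _ this
  have key : ∀ i : Fin 6, ∃ δ > 0, i ≠ k.castSucc → i ≠ k.succ → ∀ᶠ q in 𝓝 q₀,
      2 * δ ≤ ‖q k.castSucc - q i‖ := by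
    intro i
    by_cases h1 : i = k.castSucc
    · exact ⟨1, one_pos, fun h => absurd h1 h⟩
    by_cases h2 : i = k.succ
    · exact ⟨1, one_pos, fun _ h => absurd h2 h⟩
    have h3 : 0 < ‖q₀ k.castSucc - q₀ i‖ := norm_pos_iff.2 (sub_ne_zero.2 (hne i h1 h2))
    refine ⟨‖q₀ k.castSucc - q₀ i‖ / 4, by positivity, fun _ _ => ?_⟩
    have hc : ContinuousAt (fun q : C6 => ‖q k.castSucc - q i‖) q₀ :=
      ((continuous_apply k.castSucc).sub (continuous_apply i)).norm.continuousAt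
    filter_upwards [hc.eventually (lt_mem_nhds (show ‖q₀ k.castSucc - q₀ i‖ / 2 <
      ‖q₀ k.castSucc - q₀ i‖ by linarith))] with q hq
    linarith
  choose δ hδ h using key
  set m : ℝ := min 1 (Finset.univ.inf' Finset.univ_nonempty δ) with hm
  have hm0 : 0 < m := by
    rw [hm]
    refine lt_min one_pos ?_
    rw [Finset.lt_inf'_iff]
    exact fun i _ => hδ i
  have hmi : ∀ i, m ≤ δ i := fun i =>
    (min_le_right _ _).trans (Finset.inf'_le _ (Finset.mem_univ i))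
  refine ⟨{q | ∀ i, i ≠ k.castSucc → i ≠ k.succ → 2 * m ≤ ‖q k.castSucc - q i‖}, ?_, m, hm0,
    min_le_left _ _, fun q hq => hq⟩
  show ∀ᶠ q in 𝓝 q₀, ∀ i, i ≠ k.castSucc → i ≠ k.succ → 2 * m ≤ ‖q k.castSucc - q i‖
  refine eventually_all.2 fun i => ?_
  by_cases h1 : i = k.castSucc
  · exact Eventually.of_forall fun q h => absurd h1 h
  by_cases h2 : i = k.succ
  · exact Eventually.of_forall fun q _ h => absurd h2 h
  filter_upwards [h i h1 h2] with q hq _ _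
  have := hmi i
  linarith

/-- **(C2)**: `U`, `c₀`, `B` near the divisor -/
theorem exists_neck {q₀ : C6} (hq : q₀ ∈ H828.XD k) {κ : ℝ} (hκ : 0 < κ) (hκ1 : κ ≤ 1) :
    ∃ U ∈ 𝓝 q₀, ∃ c₀ > 0, ∃ B > 0, ∀ q ∈ U, ∀ {d X Y X' Y' lX lY lX' lY' : ℂ} {δ : C6}
      (E : Type) [NormedAddCommGroup E] [NormedSpace ℝ E] {b : E → C6} {p p' : E → ℂ × ℂ}
      {e v : E}, DifferentiableAt ℝ b e → DifferentiableAt ℝ (fun e => (p e).1) e →
      DifferentiableAt ℝ (fun e => (p' e).1) e → b e = bd k q d →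
      (p e).1 = xn k q X Y → (p' e).1 = xn k q X' Y' →
      fderiv ℝ b e v = bw k δ d ((lX + lY) / 2) → lX + lY = lX' + lY' →
      fderiv ℝ (fun e => (p e).1) e v = (nv k δ d X Y lX lY).2 →
      fderiv ℝ (fun e => (p' e).1) e v = (nv k δ d X' Y' lX' lY').2 →
      X * Y = d ^ 2 → X' * Y' = d ^ 2 → d ≠ 0 → ‖X‖ ≤ c₀ → ‖Y‖ ≤ c₀ → ‖X'‖ ≤ c₀ → ‖Y'‖ ≤ c₀ →
      (∀ i, κ * ‖d‖ ≤ ‖(p e).1 - b e i‖ ∧ κ * ‖d‖ ≤ ‖(p' e).1 - b e i‖) →
      ‖X' - X‖ ≤ ‖X‖ / 4 → ‖Y' - Y‖ ≤ ‖Y‖ / 4 →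
      ∃ ζ, LogN b p e v ζ (B * gap₁ δ X Y d lX lY lX' lY') ∧
        LogN b p' e v ζ (B * gap₁ δ X Y d lX lY lX' lY') := by
  obtain ⟨U, hU, dl, hdl, hdl1, hfar⟩ := exists_far hq
  refine ⟨U, hU, dl, hdl, 2 * Kc κ dl, by have := Kc_pos hκ hdl; positivity, ?_⟩
  intro q hqU d X Y X' Y' lX lY lX' lY' δ E _ _ b p p' e v hb hp hp' eb ep ep' db hl dp dp' mul
    mul' hd hX hY hX' hY' off cX cY
  have far : ∀ X Y : ℂ, ‖X‖ ≤ dl → ‖Y‖ ≤ dl → ∀ i, i ≠ k.castSucc → i ≠ k.succ →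
      dl ≤ ‖xn k q X Y - q i‖ := by
    intro X Y hX hY i h1 h2
    have h3 := hfar q hqU i h1 h2
    have h4 : ‖(X + Y) / 2‖ ≤ dl := by
      rw [norm_div]
      have h4 : ‖(2 : ℂ)‖ = 2 := by norm_num
      rw [h4]
      have := norm_add_le X Y
      linarith
    have h5 : ‖q k.castSucc - q i‖ ≤ ‖xn k q X Y - q i‖ + ‖(X + Y) / 2‖ := by
      have := norm_sub_le (xn k q X Y - q i) ((X + Y) / 2)
      have e : xn k q X Y - q i - (X + Y) / 2 = q k.castSucc - q i := by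
        unfold xn
        ring
      rwa [e] at this
    linarith
  have o := off k.castSucc
  have o' := off k.succ
  rw [ep, ep', eb, bd_cs] at o
  rw [ep, ep', eb, bd_s] at o'
  have h1 := neckMark_of_nv (κ := κ) (dl := dl) hb hp eb ep db dp mul hd (hX.trans hdl1)
    (hY.trans hdl1) (far X Y hX hY) o.1 o'.1
  have h2 := neckMark_of_nv (κ := κ) (dl := dl) hb hp' eb ep' (by rw [db, hl]) dp' mul' hd
    (hX'.trans hdl1) (hY'.trans hdl1) (far X' Y' hX' hY') o.2 o'.2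
  obtain ⟨ζ, h3, h4⟩ := exists_logN_neck h1 h2 hκ hκ1 hdl hdl1 (by positivity) cX cY
  have h5 : Kc κ dl * gap X Y d lX lY lX' lY' (2 * ‖δ‖) ≤
      2 * Kc κ dl * gap₁ δ X Y d lX lY lX' lY' := by
    have := gap_le δ X Y d lX lY lX' lY'
    have h6 := Kc_pos hκ hdl
    calc Kc κ dl * gap X Y d lX lY lX' lY' (2 * ‖δ‖)
        ≤ Kc κ dl * (2 * gap₁ δ X Y d lX lY lX' lY') := by gcongr
      _ = _ := by ring
  exact ⟨ζ, LogN.mono h3 h5, LogN.mono h4 h5⟩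

/-- **(C3)**: marks at distance at least `κ` from the roots -/
theorem logN_bw {δ : C6} {d lam : ℂ} {κ : ℝ} (hb : DifferentiableAt ℝ b e)
    (hp : DifferentiableAt ℝ (fun e => (p e).1) e) (db : fderiv ℝ b e v = bw k δ d lam)
    (hκ : 0 < κ) (h : ∀ i, κ ≤ ‖(p e).1 - b e i‖) :
    LogN b p e v 0 (κ⁻¹ * (‖δ‖ + ‖fderiv ℝ (fun e => (p e).1) e v‖ + ‖d‖ * ‖lam‖)) := by
  refine logN_core hκ (τ := ‖δ‖ + ‖fderiv ℝ (fun e => (p e).1) e v‖ + ‖d‖ * ‖lam‖)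
    (by positivity) h (fun i => ?_) (by rw [div_eq_inv_mul])
  rw [fderiv_sub_apply hb hp, db]
  refine (norm_sub_le _ _).trans ?_
  have := norm_bw_le (k := k) δ d lam i
  linarith

/-- the direction of a mark of the neck -/
theorem norm_nv_le (δ : C6) (d X Y lX lY : ℂ) :
    ‖(nv k δ d X Y lX lY).2‖ ≤ ‖δ‖ + ‖X‖ * ‖lX‖ + ‖Y‖ * ‖lY‖ := by
  show ‖δ k.castSucc + (X * lX + Y * lY) / 2‖ ≤ _
  have h3 : ‖(X * lX + Y * lY) / 2‖ ≤ ‖X‖ * ‖lX‖ + ‖Y‖ * ‖lY‖ := by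
    rw [norm_div, ← norm_mul, ← norm_mul]
    have h4 : ‖(2 : ℂ)‖ = 2 := by norm_num
    rw [h4]
    have h5 := norm_add_le (X * lX) (Y * lY)
    have h6 := norm_nonneg (X * lX)
    have h7 := norm_nonneg (Y * lY)
    linarith
  have h4 := norm_le_pi_norm δ k.castSucc
  refine (norm_add_le _ _).trans ?_
  linarith

end pair

end Vale.Agent.P273.H581
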