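import Vale.Agent.P273.H581.Col2
import Vale.Agent.P273.H730.Asm0

/-!
# P273, row ASY1: `neckL : NeckL` and `coreL : CoreL`

The logarithmic derivatives of the distances of a mark to the roots, in the neck and on the core.
-/

open Set Filter Topology Metric
open Vale.Agent.P273.H973 Vale.Agent.P273.H562 Vale.Agent.P273.H681 Vale.Agent.P273.H730

noncomputable section

namespace Vale.Agent.P273.H581

/-! ### one root -/

theorem le_cube {b : Fin 6 → ℂ} {x : ℂ} {i : Fin 6} (ht : x - b i ≠ 0) {z : ℂ} {ρ : ℝ}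
    (hρ : 0 ≤ ρ) (h : ‖z‖ ≤ ρ * ‖x - b i‖) :
    ‖z‖ ≤ ρ * ‖x - b i‖ ^ 3 * qs fun i => x - b i := by
  have h1 : 1 ≤ ‖x - b i‖ ^ 2 * qs fun i => x - b i :=
    one_le_mul_qs (t := fun i => x - b i) (i := i) ht
  calc ‖z‖ ≤ ρ * ‖x - b i‖ * 1 := by rw [mul_one]; exact h
    _ ≤ ρ * ‖x - b i‖ * (‖x - b i‖ ^ 2 * qs fun i => x - b i) := by gcongr
    _ = _ := by ring

section alg

variable {X Y d : ℂ}

theorem norm_d_le4 (h : X * Y = d ^ 2) (hY : ‖Y‖ ≤ 4 * ‖X‖) : ‖d‖ ≤ 2 * ‖X‖ := by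
  have h1 := norm_d_sq h
  have h2 := norm_nonneg X
  have h3 := norm_nonneg d
  nlinarith

theorem norm_Y_le4 (h : X * Y = d ^ 2) (hY : ‖Y‖ ≤ 4 * ‖X‖) : ‖Y‖ ≤ 2 * ‖d‖ := by
  have h1 := norm_d_sq h
  have h2 := norm_nonneg Y
  have h3 := norm_nonneg d
  nlinarith

theorem norm_half (z : ℂ) : ‖z / 2‖ = ‖z‖ / 2 := by
  rw [norm_div]
  norm_num

theorem norm_d_add (h : X * Y = d ^ 2) : ‖d‖ ≤ ‖X‖ + ‖Y‖ := by
  have h1 := norm_d_sq h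
  have h2 := norm_nonneg Y
  have h3 := norm_nonneg d
  have h4 := norm_nonneg X
  nlinarith

theorem norm_t_le4 (h : X * Y = d ^ 2) (hY : ‖Y‖ ≤ 4 * ‖X‖) {s : ℂ} (hs : ‖s‖ = ‖d‖) :
    ‖(X + Y) / 2 + s‖ ≤ 5 * ‖X‖ := by
  have h1 := norm_d_le4 h hY
  have h2 := norm_add_le ((X + Y) / 2) s
  rw [norm_half, hs] at h2
  have h3 := norm_add_le X Y
  have h4 := norm_nonneg X
  linarith

/-- a root of the pair, `ζ = lX` -/
theorem pair_X (h : X * Y = d ^ 2) (hX : X ≠ 0) (hY : ‖Y‖ ≤ 4 * ‖X‖) {s lX lY : ℂ}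
    (hs : ‖s‖ = ‖d‖) (ht : ‖d‖ / 10 ≤ ‖(X + Y) / 2 + s‖) :
    ‖(X * lX + Y * lY) / 2 + s * ((lX + lY) / 2) - lX * ((X + Y) / 2 + s)‖ ≤
      120 * (‖lY - lX‖ * (‖d‖ / ‖X‖)) * ‖(X + Y) / 2 + s‖ := by
  have hX0 : 0 < ‖X‖ := norm_pos_iff.2 hX
  have e : (X * lX + Y * lY) / 2 + s * ((lX + lY) / 2) - lX * ((X + Y) / 2 + s) =
      (lY - lX) * ((Y + s) / 2) := by ring
  rw [e]
  have h1 := le_norm_t h (κ := 1 / 10) (by norm_num) hs (by linarith)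
  have h2 := norm_Y_le4 h hY
  have h3 : ‖(Y + s) / 2‖ ≤ 3 / 2 * ‖d‖ := by
    rw [norm_half]
    have := norm_add_le Y s
    rw [hs] at this
    linarith
  have h4 : 1 ≤ 80 / ‖X‖ * ‖(X + Y) / 2 + s‖ := by
    rw [div_mul_eq_mul_div, one_le_div hX0]
    linarith
  calc ‖(lY - lX) * ((Y + s) / 2)‖ ≤ ‖lY - lX‖ * (3 / 2 * ‖d‖) := by
        rw [norm_mul]
        gcongr
    _ = ‖lY - lX‖ * (3 / 2 * ‖d‖) * 1 := by rw [mul_one]
    _ ≤ ‖lY - lX‖ * (3 / 2 * ‖d‖) * (80 / ‖X‖ * ‖(X + Y) / 2 + s‖) := by gcongr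
    _ = _ := by ring

/-- a root of the pair, `ζ = 0` -/
theorem pair_0 (h : X * Y = d ^ 2) {s lX lY : ℂ} (hs : ‖s‖ = ‖d‖)
    (ht : ‖d‖ / 10 ≤ ‖(X + Y) / 2 + s‖) :
    ‖(X * lX + Y * lY) / 2 + s * ((lX + lY) / 2)‖ ≤
      160 * (‖lX‖ + ‖lY‖) * ‖(X + Y) / 2 + s‖ := by
  have h1 := le_norm_t h (κ := 1 / 10) (by norm_num) hs (by linarith)
  have h2 : 1 / 10 / 8 * ‖Y‖ ≤ ‖(X + Y) / 2 + s‖ := by
    have := le_norm_t (X := Y) (Y := X) (d := d) (by rw [mul_comm]; exact h) (κ := 1 / 10)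
      (by norm_num) hs (by rw [add_comm Y]; linarith)
    rwa [add_comm Y] at this
  have h3 := norm_d_add h
  have hX := norm_nonneg X
  have hY := norm_nonneg Y
  have hlX := norm_nonneg lX
  have hlY := norm_nonneg lY
  have h4 : ‖(X * lX + Y * lY) / 2‖ ≤ (‖X‖ * ‖lX‖ + ‖Y‖ * ‖lY‖) / 2 := by
    rw [norm_half, ← norm_mul, ← norm_mul]
    have := norm_add_le (X * lX) (Y * lY)
    linarith
  have h5 : ‖s * ((lX + lY) / 2)‖ ≤ (‖X‖ + ‖Y‖) * ((‖lX‖ + ‖lY‖) / 2) := by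
    rw [norm_mul, norm_half, hs]
    have := norm_add_le lX lY
    gcongr
  set T := ‖(X + Y) / 2 + s‖ with hT
  have hX' : ‖X‖ ≤ 80 * T := by linarith
  have hY' : ‖Y‖ ≤ 80 * T := by linarith
  calc ‖(X * lX + Y * lY) / 2 + s * ((lX + lY) / 2)‖
      ≤ (‖X‖ * ‖lX‖ + ‖Y‖ * ‖lY‖) / 2 + (‖X‖ + ‖Y‖) * ((‖lX‖ + ‖lY‖) / 2) :=
        (norm_add_le _ _).trans (add_le_add h4 h5)
    _ ≤ (80 * T * ‖lX‖ + 80 * T * ‖lY‖) / 2 + (80 * T + 80 * T) * ((‖lX‖ + ‖lY‖) / 2) := by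
        gcongr
    _ ≤ _ := by
        have : 0 ≤ T * (‖lX‖ + ‖lY‖) := by positivity
        nlinarith

end alg

/-! ### the neck -/

variable {k : Fin 5}

theorem far_xn {q : C6} {dl : ℝ} (hfar : ∀ i, i ≠ k.castSucc → i ≠ k.succ →
    2 * dl ≤ ‖q k.castSucc - q i‖) {X Y : ℂ} (hX : ‖X‖ ≤ dl) (hY : ‖Y‖ ≤ dl) (i : Fin 6)
    (h1 : i ≠ k.castSucc) (h2 : i ≠ k.succ) : dl ≤ ‖xn k q X Y - q i‖ := by
  have h3 := hfar i h1 h2
  have h4 : ‖(X + Y) / 2‖ ≤ dl := by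
    rw [norm_half]
    have := norm_add_le X Y
    linarith
  have h5 : ‖q k.castSucc - q i‖ ≤ ‖xn k q X Y - q i‖ + ‖(X + Y) / 2‖ := by
    have := norm_sub_le (xn k q X Y - q i) ((X + Y) / 2)
    have e : xn k q X Y - q i - (X + Y) / 2 = q k.castSucc - q i := by
      unfold xn
      ring
    rwa [e] at this
  linarith

theorem xn_cs (q : C6) (X Y d : ℂ) : xn k q X Y - bd k q d k.castSucc = (X + Y) / 2 + d := by
  rw [bd_cs, xn]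
  ring

theorem xn_s (q : C6) (X Y d : ℂ) : xn k q X Y - bd k q d k.succ = (X + Y) / 2 + -d := by
  rw [bd_s, xn]
  ring

theorem nv_cs (δ : C6) (d X Y lX lY : ℂ) : (nv k δ d X Y lX lY).2 -
    bw k δ d ((lX + lY) / 2) k.castSucc = (X * lX + Y * lY) / 2 + d * ((lX + lY) / 2) := by
  rw [bw_cs]
  show δ k.castSucc + (X * lX + Y * lY) / 2 - _ = _
  ring

theorem nv_s (δ : C6) (d X Y lX lY : ℂ) : (nv k δ d X Y lX lY).2 -
    bw k δ d ((lX + lY) / 2) k.succ = (X * lX + Y * lY) / 2 + -d * ((lX + lY) / 2) := by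
  rw [bw_s]
  show δ k.castSucc + (X * lX + Y * lY) / 2 - _ = _
  ring

/-- the direction relative to another root -/
theorem nv_o_le (δ : C6) (d X Y lX lY : ℂ) {i : Fin 6} (h1 : i ≠ k.castSucc) (h2 : i ≠ k.succ) :
    ‖(nv k δ d X Y lX lY).2 - bw k δ d ((lX + lY) / 2) i‖ ≤
      2 * ‖δ‖ + ‖X‖ * ‖lX‖ + ‖Y‖ * ‖lY‖ := by
  rw [bw_o δ d _ h1 h2]
  have h3 := norm_nv_le (k := k) δ d X Y lX lY
  have h4 := norm_le_pi_norm δ i
  exact (norm_sub_le _ _).trans (by linarith)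

/-- the constant -/
def Bn (dl : ℝ) : ℝ := 200 / dl ^ 3

theorem Bn_pos {dl : ℝ} (h : 0 < dl) : 0 < Bn dl := by unfold Bn; positivity

theorem le_Bn {dl : ℝ} (h : 0 < dl) (h1 : dl ≤ 1) : 200 ≤ Bn dl := by
  unfold Bn
  rw [le_div_iff₀ (by positivity)]
  have : dl ^ 3 ≤ 1 := pow_le_one₀ h.le h1
  nlinarith

theorem le_Bn' {dl : ℝ} (h : 0 < dl) (h1 : dl ≤ 1) : 200 / dl ≤ Bn dl := by
  unfold Bn
  refine div_le_div_of_nonneg_left (by norm_num) (by positivity) ?_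
  have : dl ^ 2 ≤ 1 := pow_le_one₀ h.le h1
  nlinarith

theorem other_le {T Q nX nY nd δ a b dl R : ℝ} (hdl : 0 < dl) (hdl1 : dl ≤ 1) (hT : dl ≤ T)
    (hX0 : 0 < nX) (hX1 : nX ≤ 1) (hY0 : 0 ≤ nY) (hd : nd ^ 2 = nX * nY)
    (hQ0 : 0 < Q) (hQ : 1 ≤ 25 * nX ^ 2 * Q) (hδ : 0 ≤ δ) (ha : 0 ≤ a) (hb : 0 ≤ b) (hR : 0 ≤ R) :
    (2 * δ + nX * a + nY * b) + a * T ≤
      Bn dl * (δ + nX ^ 2 * a + nd ^ 2 * b + R) * T ^ 3 * Q := by
  have hT0 : 0 < T := hdl.trans_le hT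
  have hB := Bn_pos hdl
  have hBt : 200 ≤ Bn dl * T ^ 3 := by
    unfold Bn
    rw [div_mul_eq_mul_div, le_div_iff₀ (by positivity)]
    have : dl ^ 3 ≤ T ^ 3 := by gcongr
    linarith
  have hBt2 : 200 * T ≤ Bn dl * T ^ 3 := by
    have h1 : 200 ≤ Bn dl * T ^ 2 := by
      unfold Bn
      rw [div_mul_eq_mul_div, le_div_iff₀ (by positivity)]
      have h2 : dl ^ 3 ≤ dl ^ 2 := pow_le_pow_of_le_one hdl.le hdl1 (by norm_num)
      have h3 : dl ^ 2 ≤ T ^ 2 := by gcongr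
      linarith
    calc 200 * T ≤ Bn dl * T ^ 2 * T := by gcongr
      _ = _ := by ring
  set W : ℝ := Bn dl * T ^ 3 with hW
  have hW0 : 0 < W := by positivity
  have hX2 : nX ^ 2 ≤ 1 := pow_le_one₀ hX0.le hX1
  have hXX : nX ^ 2 ≤ nX := by nlinarith
  have g1 : 2 * δ ≤ W * δ * Q := by
    have h8 : 1 ≤ 25 * Q := hQ.trans (by
      have : 25 * nX ^ 2 * Q ≤ 25 * 1 * Q := by gcongr
      linarith)
    calc 2 * δ = 2 * δ * 1 := by ring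
      _ ≤ 2 * δ * (25 * Q) := by gcongr
      _ = 50 * δ * Q := by ring
      _ ≤ 200 * δ * Q := by gcongr; norm_num
      _ ≤ W * δ * Q := by gcongr
  have g2 : nX * a ≤ W * (nX ^ 2 * a) * Q / 2 := by
    calc nX * a = nX * a * 1 := by ring
      _ ≤ 1 * a * (25 * nX ^ 2 * Q) := by gcongr
      _ = 25 * (nX ^ 2 * a) * Q := by ring
      _ ≤ 100 * (nX ^ 2 * a) * Q := by gcongr; norm_num
      _ = 200 * (nX ^ 2 * a) * Q / 2 := by ring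
      _ ≤ _ := by gcongr
  have g3 : a * T ≤ W * (nX ^ 2 * a) * Q / 2 := by
    calc a * T = a * T * 1 := by ring
      _ ≤ a * T * (25 * nX ^ 2 * Q) := by gcongr
      _ = 25 * T * (nX ^ 2 * a) * Q := by ring
      _ ≤ 100 * T * (nX ^ 2 * a) * Q := by gcongr; norm_num
      _ = 200 * T * (nX ^ 2 * a) * Q / 2 := by ring
      _ ≤ _ := by gcongr
  have g4 : nY * b ≤ W * (nd ^ 2 * b) * Q := by
    rw [hd]
    calc nY * b = nY * b * 1 := by ring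
      _ ≤ nY * b * (25 * nX ^ 2 * Q) := by gcongr
      _ ≤ nY * b * (25 * nX * Q) := by gcongr
      _ = 25 * (nX * nY * b) * Q := by ring
      _ ≤ 200 * (nX * nY * b) * Q := by gcongr; norm_num
      _ ≤ _ := by gcongr
  have g5 : 0 ≤ W * R * Q := by positivity
  have e : Bn dl * (δ + nX ^ 2 * a + nd ^ 2 * b + R) * T ^ 3 * Q =
      W * δ * Q + W * (nX ^ 2 * a) * Q + W * (nd ^ 2 * b) * Q + W * R * Q := by
    rw [hW]
    ring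
  rw [e]
  linarith

/-- **the side of `X`** -/
theorem logP_X {q : C6} {d X Y : ℂ} {dl : ℝ} (hdl : 0 < dl) (hdl1 : dl ≤ 1)
    (hfar : ∀ i, i ≠ k.castSucc → i ≠ k.succ → 2 * dl ≤ ‖q k.castSucc - q i‖)
    (mul : X * Y = d ^ 2) (hd : d ≠ 0) (hX : ‖X‖ ≤ dl) (hY : ‖Y‖ ≤ dl)
    (o₁ : ‖d‖ / 10 ≤ ‖xn k q X Y - (q k.castSucc - d)‖)
    (o₂ : ‖d‖ / 10 ≤ ‖xn k q X Y - (q k.castSucc + d)‖) (δ : C6) (lX lY : ℂ)
    (hle : ‖Y‖ ≤ 4 * ‖X‖) :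
    LogP (bd k q d) (bw k δ d ((lX + lY) / 2)) (xn k q X Y) (nv k δ d X Y lX lY).2 lX
      (Bn dl * (‖δ‖ + ‖X‖ ^ 2 * ‖lX‖ + ‖d‖ ^ 2 * ‖lY‖ + ‖lY - lX‖ * (‖d‖ / ‖X‖))) := by
  have hXne : X ≠ 0 := left_ne_zero_of_mul (by rw [mul]; exact pow_ne_zero 2 hd)
  have hX0 : 0 < ‖X‖ := norm_pos_iff.2 hXne
  have hd0 : 0 < ‖d‖ := norm_pos_iff.2 hd
  have hB := Bn_pos hdl
  have hB2 := le_Bn hdl hdl1
  set ρ : ℝ := ‖δ‖ + ‖X‖ ^ 2 * ‖lX‖ + ‖d‖ ^ 2 * ‖lY‖ + ‖lY - lX‖ * (‖d‖ / ‖X‖) with hρ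
  have hρ0 : 0 ≤ ρ := by positivity
  have e₁ : xn k q X Y - bd k q d k.castSucc = (X + Y) / 2 + d := xn_cs q X Y d
  have e₂ : xn k q X Y - bd k q d k.succ = (X + Y) / 2 + -d := xn_s q X Y d
  have f₁ := nv_cs (k := k) δ d X Y lX lY
  have f₂ := nv_s (k := k) δ d X Y lX lY
  have o₁' : ‖d‖ / 10 ≤ ‖(X + Y) / 2 + d‖ := by rw [← e₁, bd_cs]; exact o₁
  have o₂' : ‖d‖ / 10 ≤ ‖(X + Y) / 2 + -d‖ := by rw [← e₂, bd_s]; exact o₂
  have hpair : ∀ s : ℂ, ‖s‖ = ‖d‖ → ‖d‖ / 10 ≤ ‖(X + Y) / 2 + s‖ →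
      ‖(X * lX + Y * lY) / 2 + s * ((lX + lY) / 2) - lX * ((X + Y) / 2 + s)‖ ≤
        Bn dl * ρ * ‖(X + Y) / 2 + s‖ := by
    intro s hs ht
    refine (pair_X mul hXne hle hs ht).trans ?_
    have h1 : ‖lY - lX‖ * (‖d‖ / ‖X‖) ≤ ρ := by
      rw [hρ]
      have : 0 ≤ ‖δ‖ + ‖X‖ ^ 2 * ‖lX‖ + ‖d‖ ^ 2 * ‖lY‖ := by positivity
      linarith
    gcongr
    linarith
  intro i
  by_cases h1 : i = k.castSucc
  · subst h1
    have h2 : xn k q X Y - bd k q d k.castSucc ≠ 0 := by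
      rw [e₁]
      exact norm_pos_iff.1 (lt_of_lt_of_le (by positivity) o₁')
    refine le_cube h2 (by positivity) ?_
    rw [f₁, e₁]
    exact hpair d rfl o₁'
  by_cases h2 : i = k.succ
  · subst h2
    have h2 : xn k q X Y - bd k q d k.succ ≠ 0 := by
      rw [e₂]
      exact norm_pos_iff.1 (lt_of_lt_of_le (by positivity) o₂')
    refine le_cube h2 (by positivity) ?_
    rw [f₂, e₂]
    exact hpair (-d) (norm_neg d) o₂'
  -- the other roots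
  have h3 := far_xn hfar hX hY i h1 h2
  have h4 := nv_o_le (k := k) δ d X Y lX lY h1 h2
  have h5 : (25 * ‖X‖ ^ 2)⁻¹ ≤ qs fun i => xn k q X Y - bd k q d i := by
    refine le_trans ?_ (inv_le_qs _ k.castSucc)
    show _ ≤ (‖xn k q X Y - bd k q d k.castSucc‖ ^ 2)⁻¹
    rw [e₁]
    have h6 := norm_t_le4 mul hle (s := d) rfl
    have h7 : 0 < ‖(X + Y) / 2 + d‖ := lt_of_lt_of_le (by positivity) o₁'
    refine inv_anti₀ (by positivity) ?_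
    calc ‖(X + Y) / 2 + d‖ ^ 2 ≤ (5 * ‖X‖) ^ 2 := by gcongr
      _ = _ := by ring
  rw [bd_o q d h1 h2]
  have hQ0 : 0 < qs fun i => xn k q X Y - bd k q d i := lt_of_lt_of_le (by positivity) h5
  have h6 : 1 ≤ 25 * ‖X‖ ^ 2 * qs fun i => xn k q X Y - bd k q d i := by
    calc (1 : ℝ) = 25 * ‖X‖ ^ 2 * (25 * ‖X‖ ^ 2)⁻¹ := by field_simp
      _ ≤ _ := by gcongr
  refine ((norm_sub_le _ _).trans (add_le_add h4 (norm_mul_le _ _))).trans ?_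
  exact other_le hdl hdl1 h3 hX0 (hX.trans hdl1) (norm_nonneg _) (norm_d_sq mul) hQ0 h6
    (norm_nonneg _) (norm_nonneg _) (norm_nonneg _) (by positivity)

/-- `ζ = 0` -/
theorem logP_0 {q : C6} {d X Y : ℂ} {dl : ℝ} (hdl : 0 < dl) (hdl1 : dl ≤ 1)
    (hfar : ∀ i, i ≠ k.castSucc → i ≠ k.succ → 2 * dl ≤ ‖q k.castSucc - q i‖)
    (mul : X * Y = d ^ 2) (hd : d ≠ 0) (hX : ‖X‖ ≤ dl) (hY : ‖Y‖ ≤ dl)
    (o₁ : ‖d‖ / 10 ≤ ‖xn k q X Y - (q k.castSucc - d)‖)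
    (o₂ : ‖d‖ / 10 ≤ ‖xn k q X Y - (q k.castSucc + d)‖) (δ : C6) (lX lY : ℂ) :
    LogP (bd k q d) (bw k δ d ((lX + lY) / 2)) (xn k q X Y) (nv k δ d X Y lX lY).2 0
      (Bn dl * (‖δ‖ + ‖lX‖ + ‖lY‖)) := by
  have hd0 : 0 < ‖d‖ := norm_pos_iff.2 hd
  have hB := Bn_pos hdl
  have hB2 := le_Bn hdl hdl1
  have hB3 := le_Bn' hdl hdl1
  have e₁ : xn k q X Y - bd k q d k.castSucc = (X + Y) / 2 + d := xn_cs q X Y d
  have e₂ : xn k q X Y - bd k q d k.succ = (X + Y) / 2 + -d := xn_s q X Y d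
  have f₁ := nv_cs (k := k) δ d X Y lX lY
  have f₂ := nv_s (k := k) δ d X Y lX lY
  have o₁' : ‖d‖ / 10 ≤ ‖(X + Y) / 2 + d‖ := by rw [← e₁, bd_cs]; exact o₁
  have o₂' : ‖d‖ / 10 ≤ ‖(X + Y) / 2 + -d‖ := by rw [← e₂, bd_s]; exact o₂
  have hδ := norm_nonneg δ
  have hpair : ∀ s : ℂ, ‖s‖ = ‖d‖ → ‖d‖ / 10 ≤ ‖(X + Y) / 2 + s‖ →
      ‖(X * lX + Y * lY) / 2 + s * ((lX + lY) / 2)‖ ≤
        Bn dl * (‖δ‖ + ‖lX‖ + ‖lY‖) * ‖(X + Y) / 2 + s‖ := by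
    intro s hs ht
    refine (pair_0 mul hs ht).trans ?_
    gcongr
    · linarith
    · linarith
  intro i
  rw [zero_mul, sub_zero]
  by_cases h1 : i = k.castSucc
  · subst h1
    have h2 : xn k q X Y - bd k q d k.castSucc ≠ 0 := by
      rw [e₁]
      exact norm_pos_iff.1 (lt_of_lt_of_le (by positivity) o₁')
    refine le_cube h2 (by positivity) ?_
    rw [f₁, e₁]
    exact hpair d rfl o₁'
  by_cases h2 : i = k.succ
  · subst h2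
    have h2 : xn k q X Y - bd k q d k.succ ≠ 0 := by
      rw [e₂]
      exact norm_pos_iff.1 (lt_of_lt_of_le (by positivity) o₂')
    refine le_cube h2 (by positivity) ?_
    rw [f₂, e₂]
    exact hpair (-d) (norm_neg d) o₂'
  have h3 := far_xn hfar hX hY i h1 h2
  have h4 := nv_o_le (k := k) δ d X Y lX lY h1 h2
  have h5 : dl ≤ ‖xn k q X Y - bd k q d i‖ := by rw [bd_o q d h1 h2]; exact h3
  have h6 : xn k q X Y - bd k q d i ≠ 0 := norm_pos_iff.1 (hdl.trans_le h5)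
  refine le_cube h6 (by positivity) (h4.trans ?_)
  have hX1 : ‖X‖ ≤ 1 := hX.trans hdl1
  have hY1 : ‖Y‖ ≤ 1 := hY.trans hdl1
  have h7 : 2 ≤ Bn dl * dl := by
    have : 200 / dl * dl = 200 := by field_simp
    nlinarith
  calc 2 * ‖δ‖ + ‖X‖ * ‖lX‖ + ‖Y‖ * ‖lY‖ ≤ 2 * ‖δ‖ + 1 * ‖lX‖ + 1 * ‖lY‖ := by gcongr
    _ ≤ 2 * (‖δ‖ + ‖lX‖ + ‖lY‖) := by
        have := norm_nonneg lX
        have := norm_nonneg lY
        linarith
    _ ≤ (Bn dl * dl) * (‖δ‖ + ‖lX‖ + ‖lY‖) := by gcongr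
    _ = Bn dl * (‖δ‖ + ‖lX‖ + ‖lY‖) * dl := by ring
    _ ≤ _ := by gcongr

theorem xn_symm (q : C6) (X Y : ℂ) : xn k q Y X = xn k q X Y := by
  unfold xn
  rw [add_comm Y]

theorem nv_symm (δ : C6) (d X Y lX lY : ℂ) : nv k δ d Y X lY lX = nv k δ d X Y lX lY := by
  unfold nv
  rw [add_comm lY, add_comm (Y * lY)]

/-- **the data of a neck mark** -/
theorem neckL : NeckL := by
  intro k q₀ hq
  obtain ⟨U, hU, dl, hdl, hdl1, hfar⟩ := exists_far hq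
  refine ⟨U, hU, dl, hdl, fun c hc hcdl => ⟨1, Bn dl, one_pos, Bn_pos hdl, ?_⟩⟩
  intro q d hA X Y mul hX hY o₁ o₂ δ lX lY
  have hf := hfar q hA.qU
  refine ⟨logP_0 hdl hdl1 hf mul hA.d0 (hX.trans hcdl) (hY.trans hcdl) o₁ o₂ δ lX lY,
    fun hle => logP_X hdl hdl1 hf mul hA.d0 (hX.trans hcdl) (hY.trans hcdl) o₁ o₂ δ lX lY hle,
    fun hle => ?_⟩
  have := logP_X (k := k) (X := Y) (Y := X) (d := d) (q := q) hdl hdl1 hf
    (by rw [mul_comm]; exact mul) hA.d0 (hY.trans hcdl) (hX.trans hcdl)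
    (by rw [xn_symm]; exact o₁) (by rw [xn_symm]; exact o₂) δ lY lX hle
  rw [xn_symm, nv_symm, add_comm lY] at this
  exact this

/-! ### the core -/

theorem norm_le_of_yl {c : ℝ} {d : ℂ} (hc : 0 < c) (hd : d ≠ 0)
    (h : 2 * Real.log 32 ≤ yl c d) : ‖d‖ ≤ c / 32 := by
  have hd0 : 0 < ‖d‖ := norm_pos_iff.2 hd
  unfold yl at h
  have h1 : Real.log 32 ≤ Real.log (c / ‖d‖) := by linarith
  have h2 : (32 : ℝ) ≤ c / ‖d‖ := (Real.log_le_log_iff (by norm_num) (by positivity)).1 h1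
  rw [le_div_iff₀ hd0] at h2
  linarith

/-- **the data of a core mark** -/
theorem coreL : CoreL := by
  intro k q₀ _
  refine ⟨univ, univ_mem, fun c r R₀ hc hr => ?_⟩
  set κ : ℝ := min (c / 32) r with hκ
  have hκ0 : 0 < κ := lt_min (by positivity) hr
  refine ⟨2 * Real.log 32, κ⁻¹, by have := Real.log_pos (show (1 : ℝ) < 32 by norm_num); positivity,
    inv_pos.2 hκ0, ?_⟩
  intro q d hA x _ hx hl δ lam dz
  have hd := norm_le_of_yl hc hA.d0 hA.len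
  have hoff : ∀ i, κ ≤ ‖x - bd k q d i‖ := by
    intro i
    by_cases h1 : i = k.castSucc
    · subst h1
      rw [bd_cs]
      have e : x - (q k.castSucc - d) = (x - q k.castSucc) + d := by ring
      rw [e]
      have h2 : ‖x - q k.castSucc‖ ≤ ‖(x - q k.castSucc) + d‖ + ‖d‖ := by
        have := norm_sub_le ((x - q k.castSucc) + d) d
        rwa [add_sub_cancel_right] at this
      have := min_le_left (c / 32) r
      linarith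
    by_cases h2 : i = k.succ
    · subst h2
      rw [bd_s]
      have e : x - (q k.castSucc + d) = (x - q k.castSucc) - d := by ring
      rw [e]
      have h2 : ‖x - q k.castSucc‖ ≤ ‖(x - q k.castSucc) - d‖ + ‖d‖ := by
        have := norm_add_le ((x - q k.castSucc) - d) d
        rwa [sub_add_cancel] at this
      have := min_le_left (c / 32) r
      linarith
    rw [bd_o q d h1 h2]
    exact (min_le_right _ _).trans (hl i h1 h2)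
  intro i
  have h1 := hoff i
  have h2 : x - bd k q d i ≠ 0 := norm_pos_iff.1 (hκ0.trans_le h1)
  rw [zero_mul, sub_zero]
  refine le_cube h2 (by positivity) ?_
  have h3 := norm_bw_le (k := k) δ d lam i
  calc ‖dz - bw k δ d lam i‖ ≤ ‖dz‖ + ‖bw k δ d lam i‖ := norm_sub_le _ _
    _ ≤ ‖δ‖ + ‖dz‖ + ‖d‖ * ‖lam‖ := by linarith
    _ = κ⁻¹ * (‖δ‖ + ‖dz‖ + ‖d‖ * ‖lam‖) * κ := by field_simp
    _ ≤ _ := by gcongr

end Vale.Agent.P273.H581
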