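import Vale.Agent.P273.H581.LogL
import Vale.Agent.P273.H828.Dir4

/-!
# P273, row ASY1, (PL-C): marks at distance at least `c / 16` from the pair

`pair_core`: in every direction of the chart the distances of such a mark (neck or core, finite
chart) to the roots have the logarithmic derivative `0` up to `C cst`.
-/

open Set Filter Topology Metric
open Vale.Agent.P273.H681 Vale.Agent.P273.H95 Vale.Agent.P273.H879 Vale.Agent.P273.H730
open Vale.Agent.P273.H828 (qb Xj Yj lX lY lB lam NE)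

noncomputable section

namespace Vale.Agent.P273.H581

theorem logP_core {k : Fin 5} {q : C6} {d x : ℂ} {c r : ℝ} (hc : 0 < c) (hr : 0 < r) (hd : d ≠ 0)
    (hlen : 2 * Real.log 32 ≤ yl c d) (hx : c / 16 ≤ ‖x - q k.castSucc‖)
    (hl : ∀ l, l ≠ k.castSucc → l ≠ k.succ → r ≤ ‖x - q l‖) (δ : C6) (lam dz : ℂ) :
    LogP (bd k q d) (bw k δ d lam) x dz 0
      ((min (c / 32) r)⁻¹ * (‖δ‖ + ‖dz‖ + ‖d‖ * ‖lam‖)) := by
  set κ : ℝ := min (c / 32) r with hκ
  have hκ0 : 0 < κ := lt_min (by positivity) hr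
  have hdc := norm_le_of_yl hc hd hlen
  have hoff : ∀ i, κ ≤ ‖x - bd k q d i‖ := by
    intro i
    by_cases h1 : i = k.castSucc
    · subst h1
      rw [bd_cs]
      have e : x - (q k.castSucc - d) = (x - q k.castSucc) + d := by ring
      rw [e]
      have h2 : ‖x - q k.castSucc‖ ≤ ‖(x - q k.castSucc) + d‖ + ‖d‖ := by
        have := norm_sub_le ((x - q k.castSucc) + d) d
        rwa [add_sub_cancel_right] at this
      have := min_le_left (c / 32) r
      linarith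
    by_cases h2 : i = k.succ
    · subst h2
      rw [bd_s]
      have e : x - (q k.castSucc + d) = (x - q k.castSucc) - d := by ring
      rw [e]
      have h2 : ‖x - q k.castSucc‖ ≤ ‖(x - q k.castSucc) - d‖ + ‖d‖ := by
        have := norm_add_le ((x - q k.castSucc) - d) d
        rwa [sub_add_cancel] at this
      have := min_le_left (c / 32) r
      linarith
    rw [bd_o q d h1 h2]
    exact (min_le_right _ _).trans (hl i h1 h2)
  intro i
  have h1 := hoff i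
  have h2 : x - bd k q d i ≠ 0 := norm_pos_iff.1 (hκ0.trans_le h1)
  rw [zero_mul, sub_zero]
  refine le_cube h2 (by positivity) ?_
  have h3 := norm_bw_le (k := k) δ d lam i
  calc ‖dz - bw k δ d lam i‖ ≤ ‖dz‖ + ‖bw k δ d lam i‖ := norm_sub_le _ _
    _ ≤ ‖δ‖ + ‖dz‖ + ‖d‖ * ‖lam‖ := by linarith
    _ = κ⁻¹ * (‖δ‖ + ‖dz‖ + ‖d‖ * ‖lam‖) * κ := by field_simp
    _ ≤ _ := by gcongr

theorem LogP.mono {b b' : Fin 6 → ℂ} {x x' ζ : ℂ} {ρ ρ' : ℝ} (h : LogP b b' x x' ζ ρ)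
    (hρ : ρ ≤ ρ') : LogP b b' x x' ζ ρ' := fun i =>
  (h i).trans (mul_le_mul_of_nonneg_right (mul_le_mul_of_nonneg_right hρ (by positivity))
    (H562.qs_nonneg _))

theorem exp_neg_half_le {y : ℝ} (hy : 0 < y) : Real.exp (-y / 2) ≤ 2 * y⁻¹ := by
  have h1 : y / 2 ≤ Real.exp (y / 2) := by
    have := Real.add_one_le_exp (y / 2)
    linarith
  have h2 : Real.exp (-y / 2) * Real.exp (y / 2) = 1 := by
    rw [← Real.exp_add]
    ring_nf
    exact Real.exp_zero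
  have h3 : 0 < Real.exp (-y / 2) := Real.exp_pos _
  have h4 : Real.exp (-y / 2) * (y / 2) ≤ 1 := by nlinarith
  rw [← div_eq_mul_inv, le_div_iff₀ hy]
  linarith

variable {R : Region1} {m : Fin (R.n + 1)}

theorem zh_ne {c : ℝ} (hc : 0 < c) (p : Co1 R m) : zh c p ≠ 0 := by
  unfold zh
  exact mul_ne_zero (by exact_mod_cast hc.ne') (Complex.exp_ne_zero _)

theorem norm_zh_le {c : ℝ} (hc : 0 < c) (hc1 : c ≤ 1) {p : Co1 R m} (hy : 0 < p.2.2.1 ()) :
    ‖zh c p‖ ≤ 2 * (p.2.2.1 ())⁻¹ := by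
  rw [H828.norm_zh hc]
  have h1 := exp_neg_half_le hy
  calc c * Real.exp (-p.2.2.1 () / 2) ≤ 1 * (2 * (p.2.2.1 ())⁻¹) := by gcongr
    _ = _ := by ring

/-- the size of the motion of a mark, all directions -/
theorem motion_le {k : Fin 5} {c : ℝ} (hc : 0 < c) (hc1 : c ≤ 1) {p : Co1 R m}
    (hp : (wr R m).Inr p) (hy : 1 ≤ p.2.2.1 ()) (j : L) (d : Dir1 R m) :
    ‖qb k (evec p d)‖ + ‖(fderiv ℝ (toE k c) p (evec p d)).2 j‖ +
      ‖zh c p‖ * ‖lam R m (evec p d) / 2‖ ≤ 70 * cst p d := by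
  have hy0 : 0 < p.2.2.1 () := by linarith
  have hyi : 0 < (p.2.2.1 ())⁻¹ := inv_pos.2 hy0
  have h0 := H828.cst_nn hy d
  have hz := norm_zh_le hc hc1 hy0
  have hq := H828.norm_qb_evec_le k hy d
  rcases Bool.eq_false_or_eq_true (R.nk j) with hj | hj
  · have e := congrArg Prod.snd (H828.fderiv_neck k c p (evec p d) hj)
    simp only at e
    rw [e]
    have h1 := norm_nv_le (k := k) (qb k (evec p d)) (zh c p) (Xj c p j) (Yj c p j)
      (lX R m (R.rk j) (evec p d)) (lY R m (R.rk j) (evec p d))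
    have h2 := H828.X_T1 hp hy hc hj d
    have h3 := H828.Y_T1 hp hy hc hj d
    have h4 : (15 * c + 1) * cst p d ≤ 16 * cst p d :=
      mul_le_mul_of_nonneg_right (by linarith) h0
    have h5 := norm_nonneg (lX R m (R.rk j) (evec p d))
    have h6 := norm_nonneg (lY R m (R.rk j) (evec p d))
    have h7 := norm_nonneg (Xj c p j)
    have h8 := norm_nonneg (Yj c p j)
    have a1 : ‖Xj c p j‖ * ‖lX R m (R.rk j) (evec p d)‖ ≤ 16 * cst p d := by nlinarith
    have a2 : (p.2.2.1 ())⁻¹ * ‖lX R m (R.rk j) (evec p d)‖ ≤ 16 * cst p d := by nlinarith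
    have a3 : ‖Yj c p j‖ * ‖lY R m (R.rk j) (evec p d)‖ ≤ 16 * cst p d := by nlinarith
    have a4 : (p.2.2.1 ())⁻¹ * ‖lY R m (R.rk j) (evec p d)‖ ≤ 16 * cst p d := by nlinarith
    have a5 : ‖zh c p‖ * ‖lam R m (evec p d) / 2‖ ≤ 32 * cst p d := by
      have e1 : ‖lam R m (evec p d) / 2‖ ≤ (‖lX R m (R.rk j) (evec p d)‖ +
          ‖lY R m (R.rk j) (evec p d)‖) / 2 := by
        rw [norm_half, ← H828.lX_add_lY (R.rk j)]
        have := norm_add_le (lX R m (R.rk j) (evec p d)) (lY R m (R.rk j) (evec p d))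
        linarith
      calc ‖zh c p‖ * ‖lam R m (evec p d) / 2‖ ≤ 2 * (p.2.2.1 ())⁻¹ *
            ((‖lX R m (R.rk j) (evec p d)‖ + ‖lY R m (R.rk j) (evec p d)‖) / 2) := by gcongr
        _ = (p.2.2.1 ())⁻¹ * ‖lX R m (R.rk j) (evec p d)‖ +
            (p.2.2.1 ())⁻¹ * ‖lY R m (R.rk j) (evec p d)‖ := by ring
        _ ≤ _ := by linarith
    linarith
  · have e := congrArg Prod.snd (H828.fderiv_core k c p (evec p d) hj)
    simp only at e
    rw [e]
    have h1 := H828.core_T1 hy k ⟨j, hj⟩ d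
    have h2 := norm_nonneg (lam R m (evec p d) / 2)
    have h3 : ‖zh c p‖ * ‖lam R m (evec p d) / 2‖ ≤
        2 * ((p.2.2.1 ())⁻¹ * ‖lam R m (evec p d) / 2‖) := by
      calc _ ≤ 2 * (p.2.2.1 ())⁻¹ * ‖lam R m (evec p d) / 2‖ := by gcongr
        _ = _ := by ring
    have h4 := norm_nonneg (qb k (evec p d))
    have h5 := norm_nonneg ((evec p d).2.2.2.2 (Sum.inl (⟨j, hj⟩ : R.Cm)))
    have h6 : 0 ≤ (p.2.2.1 ())⁻¹ * ‖lam R m (evec p d) / 2‖ := by positivity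
    linarith

/-- **(PL-C)**, no regions: only the range of the coordinates -/
theorem pair_core' {k : Fin 5} {c r : ℝ} (hc : 0 < c) (hc1 : c ≤ 1) (hr : 0 < r) {p : Co1 R m}
    (hp : (wr R m).Inr p) (hy : 1 + 2 * Real.log 32 ≤ p.2.2.1 ()) {j : L}
    (hx : c / 16 ≤ ‖(toE k c p).2 j - qb k p k.castSucc‖)
    (hl : ∀ l, l ≠ k.castSucc → l ≠ k.succ → r ≤ ‖(toE k c p).2 j - qb k p l‖)
    (d : Dir1 R m) :
    LogP (toE k c p).1 (fderiv ℝ (toE k c) p (evec p d)).1 ((toE k c p).2 j)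
      ((fderiv ℝ (toE k c) p (evec p d)).2 j) 0 ((min (c / 32) r)⁻¹ * 70 * cst p d) := by
  have hlog : 0 < Real.log 32 := Real.log_pos (by norm_num)
  have hy1 : 1 ≤ p.2.2.1 () := by linarith
  rw [H828.toE_roots, H828.fderiv_roots]
  refine LogP.mono (logP_core hc hr (zh_ne hc p) (by rw [H828.yl_zh hc]; linarith) hx hl _ _ _) ?_
  have hκ0 : 0 < min (c / 32) r := lt_min (by positivity) hr
  rw [mul_assoc]
  have := motion_le (k := k) hc hc1 hp hy1 j d
  gcongr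

/-- **(PL-C)** -/
theorem pair_core (k : Fin 5) (q₀ : C6) (r Rf : ℝ) (hr : 0 < r) : ∃ U ∈ 𝓝 q₀, ∃ c₀ > 0,
    ∀ c, 0 < c → c ≤ c₀ → ∃ M₀ C : ℝ, 0 < M₀ ∧ 0 < C ∧
    ∀ (R₀ : ℝ) (R : Region1) (m : Fin (R.n + 1)) (S : L → Bool) (p : Co1 R m) (g : ℂ) (v : L → ℂ),
      InReg k (U ∩ H828.XD k) c R₀ M₀ S p g v → ∀ j : L, S j = false →
      ‖(toE k c p).2 j‖ ≤ Rf → c / 16 ≤ ‖(toE k c p).2 j - qb k p k.castSucc‖ →
      (∀ l, l ≠ k.castSucc → l ≠ k.succ → r ≤ ‖(toE k c p).2 j - qb k p l‖) →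
      ∀ d : Dir1 R m, LogP (toE k c p).1 (fderiv ℝ (toE k c) p (evec p d)).1 ((toE k c p).2 j)
        ((fderiv ℝ (toE k c) p (evec p d)).2 j) 0 (C * cst p d) := by
  have hlog : 0 < Real.log 32 := Real.log_pos (by norm_num)
  refine ⟨univ, univ_mem, 1, one_pos, fun c hc hc1 => ⟨1 + 2 * Real.log 32,
    (min (c / 32) r)⁻¹ * 70, by positivity, ?_, ?_⟩⟩
  · have : 0 < min (c / 32) r := lt_min (by positivity) hr
    positivity
  · intro R₀ R m S p g v h j _ _ hx hl d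
    exact pair_core' hc hc1 hr h.inr h.y hx hl d

end Vale.Agent.P273.H581
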